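import Vale.Agent.P014.H687.P4d

/-!
# P004: nonvanishing of the central value for a positive proportion of the quadratic twists of every
elliptic curve over `ℚ` which is isogenous to a quadratic twist of `X_0(17)`
-/

namespace Vale.Agent.Results.P004.XZeroSeventeen

/-- `D` is a fundamental discriminant, `D ≠ 1` -/
def IsFundDisc (D : ℤ) : Prop :=
  D ≠ 1 ∧ ((D % 4 = 1 ∧ Squarefree D) ∨
    ∃ d : ℤ, D = 4 * d ∧ (d % 4 = 2 ∨ d % 4 = 3) ∧ Squarefree d)

open scoped Classical in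
/-- the fundamental discriminants `D ≠ 1` with `|D| ≤ X` -/
noncomputable def Family (X : ℕ) : Finset ℤ := (Finset.Icc (-(X : ℤ)) X).filter IsFundDisc

/-- the twist `D y² = x³ + a x + b`, written as `y² = x³ + a D² x + b D³` -/
noncomputable def twist (a b D : ℤ) : WeierstrassCurve ℚ :=
  ⟨0, 0, 0, ((a * D ^ 2 : ℤ) : ℚ), ((b * D ^ 3 : ℤ) : ℚ)⟩

/-- `L` is entire, and for `Re s > 3/2` it is the sum of the Dirichlet series of Mathlib's
`L`-function of the twist -/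
def IsLFun (a b D : ℤ) (L : ℂ → ℂ) : Prop :=
  Differentiable ℂ L ∧ ∀ s : ℂ, 3 / 2 < s.re →
    LSeriesHasSum (fun n => ((twist a b D).LFunction n : ℂ)) s (L s)

/-- the twist has analytic rank `0`: its `L`-function has an entire continuation (unique, see part
1 of the theorem) which does not vanish at `s = 1` -/
def RankZero (a b D : ℤ) : Prop := ∃ L : ℂ → ℂ, IsLFun a b D L ∧ L 1 ≠ 0

open scoped Classical in
/-- the number of `D ∈ Family X` for which the twist has analytic rank `0` -/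
noncomputable def count (a b : ℤ) (X : ℕ) : ℕ := ((Family X).filter (fun D => RankZero a b D)).card

/-- the `j`-invariant of `y² = x³ + a x + b` -/
def jInv (a b : ℤ) : ℚ := 6912 * (a : ℚ) ^ 3 / (4 * (a : ℚ) ^ 3 + 27 * (b : ℚ) ^ 2)

/-- the `j`-invariant is that of one of the four curves of conductor `17` -/
def Seventeen (a b : ℤ) : Prop :=
  jInv a b = -35937 / 83521 ∨ jInv a b = 20346417 / 289 ∨ jInv a b = 82483294977 / 17 ∨
    jInv a b = 35937 / 17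

/-- the equations `y² = x³ - 27 c₄ x - 54 c₆` of the four curves of conductor `17` -/
def Conductor17 (a b : ℤ) : Prop :=
  (a = -891 ∧ b = -648810) ∨ (a = -7371 ∧ b = -240570) ∨ (a = -117531 ∧ b = -15508746) ∨
    (a = -891 ∧ b = 4374)

/-! ### comparison with the definitions used in the proofs -/

theorem family_eq (X : ℕ) : Family X = _root_.P004.Fam X := rfl

theorem rankZero_iff (a b D : ℤ) : RankZero a b D ↔ _root_.Vale.Agent.P014.H687.P4.NV a b D :=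
  Iff.rfl

theorem count_eq (a b : ℤ) (X : ℕ) : count a b X = _root_.Vale.Agent.P014.H687.P4.cnt0 a b X := rfl

theorem isLFun_unique {a b D : ℤ} {L L' : ℂ → ℂ} (h : IsLFun a b D L) (h' : IsLFun a b D L') :
    L = L' :=
  _root_.Vale.Agent.P014.IsHasseWeil.unique (E := twist a b D) h h'

theorem eq_of_j {a b A B : ℤ} (hd : 4 * a ^ 3 + 27 * b ^ 2 ≠ 0)
    (hd' : 4 * A ^ 3 + 27 * B ^ 2 ≠ 0) (h : jInv a b = jInv A B) :
    a ^ 3 * B ^ 2 = A ^ 3 * b ^ 2 := by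
  have hq : (4 * (a : ℚ) ^ 3 + 27 * (b : ℚ) ^ 2) ≠ 0 := by exact_mod_cast hd
  have hq' : (4 * (A : ℚ) ^ 3 + 27 * (B : ℚ) ^ 2) ≠ 0 := by exact_mod_cast hd'
  unfold jInv at h
  rw [div_eq_div_iff hq hq'] at h
  have h2 : (a : ℚ) ^ 3 * (B : ℚ) ^ 2 = (A : ℚ) ^ 3 * (b : ℚ) ^ 2 := by
    linear_combination h / 186624
  exact_mod_cast h2

open _root_.Vale.Agent.P014.H687.P4 _root_.Vale.Agent.P014.H687.Isog
  _root_.Vale.Agent.P004H.H641 in
theorem same_of {a b : ℤ} (hd : 4 * a ^ 3 + 27 * b ^ 2 ≠ 0) (h : Seventeen a b) :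
    ∃ u v : ℤ, Is4 u v ∧ ∃ e : ℤ, e ≠ 0 ∧ SameL a b (A0 u * e ^ 2) (B0 u v * e ^ 3) := by
  have key : ∀ u v : ℤ, Is4 u v → A0 u ≠ 0 → B0 u v ≠ 0 → jInv a b = jInv (A0 u) (B0 u v) →
      ∃ u v : ℤ, Is4 u v ∧ ∃ e : ℤ, e ≠ 0 ∧ SameL a b (A0 u * e ^ 2) (B0 u v * e ^ 3) := by
    intro u v huv hA hB hj
    have h1 := eq_of_j hd (disc0 huv) hj
    have ha : a ≠ 0 := by
      rintro rfl
      have h2 : (A0 u) ^ 3 * b ^ 2 = 0 := by rw [← h1]; ring
      rcases mul_eq_zero.1 h2 with h3 | h3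
      · exact pow_ne_zero 3 hA h3
      · apply hd
        rw [h3]; norm_num
    have hb : b ≠ 0 := by
      rintro rfl
      have h2 : a ^ 3 * (B0 u v) ^ 2 = 0 := by rw [h1]; ring
      rcases mul_eq_zero.1 h2 with h3 | h3
      · exact pow_ne_zero 3 ha h3
      · exact pow_ne_zero 2 hB h3
    exact ⟨u, v, huv, sameL_j hd ha hb hA hB h1⟩
  obtain ⟨⟨h1, h1'⟩, ⟨h2, h2'⟩, ⟨h3, h3'⟩, ⟨h4, h4'⟩⟩ := AB_vals
  rcases h with h | h | h | h
  · refine key (-1) (-14) (Or.inl ⟨rfl, rfl⟩) (by rw [h1]; norm_num) (by rw [h1']; norm_num) ?_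
    rw [h, h1, h1']; unfold jInv; norm_num
  · refine key (-6) (-4) (Or.inr (Or.inl ⟨rfl, rfl⟩)) (by rw [h2]; norm_num)
      (by rw [h2']; norm_num) ?_
    rw [h, h2, h2']; unfold jInv; norm_num
  · refine key (-91) (-310) (Or.inr (Or.inr (Or.inl ⟨rfl, rfl⟩))) (by rw [h3]; norm_num)
      (by rw [h3']; norm_num) ?_
    rw [h, h3, h3']; unfold jInv; norm_num
  · refine key (-1) 0 (Or.inr (Or.inr (Or.inr ⟨rfl, rfl⟩))) (by rw [h4]; norm_num)
      (by rw [h4']; norm_num) ?_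
    rw [h, h4, h4']; unfold jInv; norm_num

open _root_.Vale.Agent.P014.H687.P4 _root_.Vale.Agent.P014.H687.Isog in
theorem is4_of {a b : ℤ} (h : Conductor17 a b) : ∃ u v : ℤ, Is4 u v ∧ A0 u = a ∧ B0 u v = b := by
  obtain ⟨⟨h1, h1'⟩, ⟨h2, h2'⟩, ⟨h3, h3'⟩, ⟨h4, h4'⟩⟩ := AB_vals
  rcases h with ⟨rfl, rfl⟩ | ⟨rfl, rfl⟩ | ⟨rfl, rfl⟩ | ⟨rfl, rfl⟩
  · exact ⟨-1, -14, Or.inl ⟨rfl, rfl⟩, h1, h1'⟩
  · exact ⟨-6, -4, Or.inr (Or.inl ⟨rfl, rfl⟩), h2, h2'⟩
  · exact ⟨-91, -310, Or.inr (Or.inr (Or.inl ⟨rfl, rfl⟩)), h3, h3'⟩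
  · exact ⟨-1, 0, Or.inr (Or.inr (Or.inr ⟨rfl, rfl⟩)), h4, h4'⟩

/-- **Analytic rank `0` for a positive proportion of the quadratic twists** (unconditional).

1. An entire continuation of the `L`-function of a twist (Mathlib's `WeierstrassCurve.LFunction`)
is unique.

2. Let `E : y² = x³ + a x + b` be an elliptic curve, `a, b ∈ ℤ`, with `j(E)` the `j`-invariant of one
of the four curves of conductor `17` (that is, `E` is isogenous over `ℚ` to a quadratic twist of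
`X_0(17)`). Then a positive proportion of the fundamental discriminants `D ≠ 1`, ordered by `|D|`,
have the property that `L(E^(D), s)` is entire with `L(E^(D), 1) ≠ 0`.

3. For the four curves of conductor `17` themselves, the lower density of these `D` is at least
`17/162`. -/
theorem result :
    (∀ (a b D : ℤ) (L L' : ℂ → ℂ), IsLFun a b D L → IsLFun a b D L' → L = L') ∧
    (∀ a b : ℤ, 4 * a ^ 3 + 27 * b ^ 2 ≠ 0 → Seventeen a b →
      ∃ c : ℝ, 0 < c ∧ ∃ X₀ : ℕ, ∀ X : ℕ, X₀ ≤ X →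
        c * ((Family X).card : ℝ) ≤ (count a b X : ℝ)) ∧
    (∀ a b : ℤ, Conductor17 a b → ∀ ε : ℝ, 0 < ε → ∃ X₀ : ℕ, ∀ X : ℕ, X₀ ≤ X →
      (17 / 162 - ε) * ((Family X).card : ℝ) ≤ (count a b X : ℝ)) := by
  refine ⟨fun a b D L L' h h' => isLFun_unique h h', fun a b hd h => ?_, fun a b h ε hε => ?_⟩
  · obtain ⟨u, v, huv, e, he, hS⟩ := same_of hd h
    exact _root_.Vale.Agent.P014.H687.P4.pos_gen _root_.Vale.Agent.P014.H687.P4.gm_prop
      _root_.Vale.Agent.P014.H687.P4.hm huv he hS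
  · obtain ⟨u, v, huv, rfl, rfl⟩ := is4_of h
    obtain ⟨X₀, h0⟩ := _root_.Vale.Agent.P014.H687.P4.prop_four (ρ := 1 / 3) (by norm_num)
      (by norm_num) _root_.Vale.Agent.P014.H687.P4.gm_prop
      _root_.Vale.Agent.P014.H687.P4.gp_prop _root_.Vale.Agent.P014.H687.P4.hm
      _root_.Vale.Agent.P014.H687.P4.hp huv ε hε
    refine ⟨X₀, fun X hX => ?_⟩
    have := h0 X hX
    rw [show (17 / 54 * (1 / 3) : ℝ) = 17 / 162 by norm_num] at this
    exact this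

end Vale.Agent.Results.P004.XZeroSeventeen
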